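import Vale.Agent.P181.SEP.Defs
import Vale.Agent.P181.H605.R6

set_option autoImplicit false

/-!
# P181: separating columns, the final statement from the result for forms
-/

open scoped TensorProduct

namespace Vale.Agent.P181.SEP.H605

open Vale.Agent.P181 Vale.Agent.P181.H280 Vale.Agent.P181.H270 Vale.Agent.P181.H73
  Vale.Agent.P181.SEP Finset MvPolynomial

/-- The hybrid map kills no highest weight vector. -/
theorem vanish_sep (hS : SepStmt) {c q k b r : ℕ} (hb : b = (q + 1) * (c + 1) + k)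
    (hkr : k + 1 ≤ r) (hra : r ≤ c + 1) (hr : Even r ∨ c + 1 ≤ 2 ^ (r - 1))
    (har : c + 1 ≤ (q + 1) * (c + 1 - r) + 1)
    (lam : Fin (c + 1) → ℕ) (hanti : ∀ i, lam (Fin.last c) ≤ lam i)
    (h1 : (q + 1) * r ≤ lam (Fin.last c)) (h2 : lam (Fin.last c) ≤ b)
    (l : (Fin (c + 1) → Fin b → (Fin (c + 1) → ℂ)) →₀ ℂ)
    (hx : elOf l ∈ hwSpace lam (plethAct (c + 1) b (c + 1)))
    (hF : Rel k (q + 1) (linS (c + 1)) (formOf l)) :
    ∀ P : Fin (c + 1) → MvPolynomial (Fin (c + 1)) ℂ, (∀ i, P i ∈ linS (c + 1) ^ b) →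
      formOf l P = 0 := by
  have hHW : HWForm (fun i => (X i : MvPolynomial (Fin (c + 1)) ℂ)) (fun i => pderiv i)
      (fun b => linS (c + 1) ^ b) b (fun i => (lam i : ℂ)) (formOf l) := by
    have h1 := hwForm_formOf (le_refl (c + 1)) lam l hx
    simpa using h1
  set m := lam (Fin.last c) with hm
  apply descent lam (formOf l) (formOf_symm l) hHW m h2 hanti
  have h3 := hS (c + 1) k q r (formOf l) (formOf_symm l) hF hkr hra hr har
  intro P hP
  obtain ⟨t, ht⟩ : ∃ t, m = t + (q + 1) * r := ⟨m - (q + 1) * r, by omega⟩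
  have h4 : (altC (fun i => (X i : MvPolynomial (Fin (c + 1)) ℂ)))^[m] (formOf l) =
      (altC (fun i => (X i : MvPolynomial (Fin (c + 1)) ℂ)))^[t]
        ((altC (fun i => (X i : MvPolynomial (Fin (c + 1)) ℂ)))^[(q + 1) * r] (formOf l)) := by
    rw [← Function.iterate_add_apply, ← ht]
  rw [h4]
  apply altC_iter_zero (linS (c + 1)) (fun i => (X i : MvPolynomial (Fin (c + 1)) ℂ))
    (fun i => X_mem_linS i) t (b - m) _ _ P hP
  intro Q hQ
  apply h3 Q
  intro i
  have h5 : (q + 1) * (c + 1) + k - (q + 1) * r = b - m + t := by omega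
  rw [h5]
  exact hQ i

/-- The case `dim V = a`. -/
theorem fin_self (hS : SepStmt) {a b r : ℕ} (ha : 1 ≤ a) (hab : a ≤ b) (lam : Fin a → ℕ)
    (hanti : Antitone lam) (hkr : b % a + 1 ≤ r) (hra : r ≤ a)
    (hr : Even r ∨ a ≤ 2 ^ (r - 1)) (har : a ≤ (b / a) * (a - r) + 1)
    (h1 : ∀ i, (b / a) * r ≤ lam i) (h2 : ∀ i : Fin a, (i : ℕ) + 1 = a → lam i ≤ b) :
    plethMult a b a lam ≤ plethMult b a a lam := by
  obtain ⟨c, rfl⟩ := Nat.exists_eq_add_of_le' ha
  have hlast : ∀ i, lam (Fin.last c) ≤ lam i := fun i => hanti (Fin.le_last i)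
  have hdm := Nat.div_add_mod b (c + 1)
  have hdiv : 1 ≤ b / (c + 1) := (Nat.one_le_div_iff (by omega)).2 hab
  obtain ⟨q, hq⟩ : ∃ q, b / (c + 1) = q + 1 := ⟨b / (c + 1) - 1, by omega⟩
  set k := b % (c + 1) with hk
  rw [hq] at hdm har h1
  have hb : b = (q + 1) * (c + 1) + k := by rw [← hdm]; ring
  have hcard : Fintype.card (H394.T k (c + 1) (q + 1)) = b := by
    rw [Fintype.card_sum, Fintype.card_prod, Fintype.card_fin, Fintype.card_fin,
      Fintype.card_fin, hb]
    ring
  let ε : H394.T k (c + 1) (q + 1) ≃ Fin b := Fintype.equivFinOfCardEq hcard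
  refine (H394.plethMult_le_of_formG ε lam ?_).2
  intro l hx hF
  exact vanish_sep hS hb hkr hra hr har lam hlast (h1 _) (h2 (Fin.last c) (by simp)) l hx hF

/-- (T4) the final statement. -/
theorem fin (hS : SepStmt) : FinStmt := by
  intro a b n r ha hab han lam hkr hra hr har h1
  by_cases h0 : plethMult a b n lam = 0
  · rw [h0]
    exact Nat.zero_le _
  · obtain ⟨hanti, hsum, hz⟩ := H530.zero_stmt a b n lam h0
    obtain ⟨k, rfl⟩ := Nat.exists_eq_add_of_le han
    set mu : Fin a → ℕ := fun i => lam (Fin.castAdd k i) with hmu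
    have hlam : lam = fun i : Fin (a + k) => if h : (i : ℕ) < a then mu ⟨i, h⟩ else 0 := by
      funext i
      by_cases hi : (i : ℕ) < a
      · rw [dif_pos hi, hmu]
        congr 1
      · rw [dif_neg hi]
        exact hz i (by omega)
    have hanti' : Antitone mu := by
      intro i j hij
      have hij' : (i : ℕ) ≤ j := hij
      exact hanti (show Fin.castAdd k i ≤ Fin.castAdd k j from hij')
    have hsum' : ∑ i, mu i = a * b := by
      rw [← hsum, Fin.sum_univ_add]
      have h5 : ∑ i : Fin k, lam (Fin.natAdd a i) = 0 := by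
        apply Finset.sum_eq_zero
        intro i _
        exact hz _ (by simp)
      rw [h5, add_zero]
    rw [hlam, H530.pad_stmt a b a k mu, H530.pad_stmt b a a k mu]
    apply fin_self hS (by omega) hab mu hanti' hkr hra hr har
    · intro i
      exact h1 (Fin.castAdd k i) (by simp)
    · intro i hi
      exact H605.last_le (by omega) mu hanti' hsum' i hi

end Vale.Agent.P181.SEP.H605
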